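import Vale.Agent.P272.HY.Blocks
import Mathlib.Analysis.Complex.LocallyUniformLimit
import Mathlib.Topology.UniformSpace.UniformConvergence

/-!
# P272 / PB: block `HY.B13a`

The matrix `pbM w F` of a Hermitian metric in the holomorphic frame given by a tube around a closed
disc is continuous up to the boundary and positive definite. The local formula `pbM_eq` in an
arbitrary chart and the chain rule `tj_change` are stated separately.
-/

open scoped Manifold ContDiff ComplexOrder Topology ENNReal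
open MeasureTheory Metric Set Filter

set_option linter.all false

noncomputable section

namespace Vale.Agent.P272.PB

open Vale.Agent.P272.K Vale.Agent.P272.HY

section
variable {n : ℕ} {X : Type*} [TopologicalSpace X] [ChartedSpace (Cm n) X]
  {w : Chart n X → Cm n → Matrix (Fin n) (Fin n) ℂ} {δ : ℝ} {f : ℂ → X} {F : ℂ → Cm n → X}
  {e e' : Chart n X} {z : ℂ} {ζ : Cm n}

lemma tj_eq_jmat (h : DifferentiableAt ℂ (fun ζ' => e (F z ζ')) ζ) :
    tj F e z ζ = jmat (fun ζ' => e (F z ζ')) ζ := by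
  ext i j
  rw [jmat_apply h]
  rfl

/-- `F z` is continuous -/
lemma cont_snd (hF : HolTube f δ F) (hz : z ∈ closedBall (0 : ℂ) 1)
    (hζ : ζ ∈ ball (0 : Cm n) δ) : ContinuousAt (fun ζ' => F z ζ') ζ := by
  have h1 : ContinuousOn (fun ζ' => F z ζ') (ball (0 : Cm n) δ) := by
    have h2 : ContinuousOn (fun ζ' : Cm n => ((z, ζ') : ℂ × Cm n)) (ball (0 : Cm n) δ) :=
      (continuous_const.prodMk continuous_id).continuousOn
    exact hF.cont.comp h2 fun ζ' hζ' => ⟨hz, hζ'⟩
  exact h1.continuousAt (isOpen_ball.mem_nhds hζ)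

/-- `z ↦ F z 0` is continuous on the closed disc -/
lemma cont_fst (hF : HolTube f δ F) : ContinuousOn (fun z => F z 0) (closedBall (0 : ℂ) 1) := by
  have h2 : ContinuousOn (fun z : ℂ => ((z, 0) : ℂ × Cm n)) (closedBall (0 : ℂ) 1) :=
    (continuous_id.prodMk continuous_const).continuousOn
  exact hF.cont.comp h2 fun z hz => ⟨hz, mem_ball_self hF.pos⟩

/-- the entries of `tj` at `ζ = 0` as one-variable derivatives -/
lemma tj_apply_eq_deriv (h : DifferentiableAt ℂ (fun ζ' => e (F z ζ')) 0) (i j : Fin n) :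
    tj F e z 0 i j = deriv (fun t : ℂ => e (F z (t • (Pi.single j 1 : Cm n))) i) 0 := by
  have h1 : HasDerivAt (fun t : ℂ => t • (Pi.single j 1 : Cm n)) (Pi.single j 1) 0 := by
    simpa using (hasDerivAt_id (0 : ℂ)).smul_const (Pi.single j 1 : Cm n)
  have h2 : HasFDerivAt (fun ζ' => e (F z ζ')) (fderiv ℂ (fun ζ' => e (F z ζ')) 0)
      ((0 : ℂ) • (Pi.single j 1 : Cm n)) := by
    rw [zero_smul]; exact h.hasFDerivAt
  have h3 : HasDerivAt (fun t : ℂ => e (F z (t • (Pi.single j 1 : Cm n))))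
      (fderiv ℂ (fun ζ' => e (F z ζ')) 0 (Pi.single j 1)) 0 :=
    HasFDerivAt.comp_hasDerivAt (l := fun ζ' => e (F z ζ')) 0 h2 h1
  exact ((hasDerivAt_pi.1 h3) i).deriv.symm

lemma norm_single_smul (t : ℂ) (j : Fin n) : ‖t • (Pi.single j 1 : Cm n)‖ = ‖t‖ := by
  rw [norm_smul, Pi.norm_single, norm_one, mul_one]

/-- `tj` at `ζ = 0` is continuous in `z`, in a fixed chart -/
lemma tj_cont (hF : HolTube f δ F) {z₀ : ℂ} (hz₀ : z₀ ∈ closedBall (0 : ℂ) 1)
    (he : At e (F z₀ 0)) (i j : Fin n) :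
    ContinuousWithinAt (fun z => tj F e z 0 i j) (closedBall 0 1) z₀ := by
  have hδ := hF.pos
  have h0 : ContinuousWithinAt (fun p : ℂ × Cm n => F p.1 p.2) (closedBall 0 1 ×ˢ ball 0 δ)
      (z₀, 0) := hF.cont _ ⟨hz₀, mem_ball_self hδ⟩
  have h1 : (fun p : ℂ × Cm n => F p.1 p.2) ⁻¹' e.source ∈
      𝓝[closedBall 0 1 ×ˢ ball 0 δ] ((z₀, 0) : ℂ × Cm n) := h0 (e.open_source.mem_nhds he.2)
  obtain ⟨ε, hε, hsub⟩ := Metric.mem_nhdsWithin_iff.1 h1
  have hsrc : ∀ z ∈ closedBall (0 : ℂ) 1, dist z z₀ < ε → ∀ ζ : Cm n, ‖ζ‖ < ε → ‖ζ‖ < δ →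
      F z ζ ∈ e.source := by
    intro z hz hd ζ hζ hζ2
    refine hsub (show ((z, ζ) : ℂ × Cm n) ∈ _ from ⟨?_, hz, by simpa using hζ2⟩)
    rw [mem_ball, Prod.dist_eq]
    exact max_lt hd (by simpa using hζ)
  set r : ℝ := min ε δ / 2 with hr
  have hm : 0 < min ε δ := lt_min hε hδ
  have hr0 : 0 < r := by positivity
  have hrε : r < ε := by have := min_le_left ε δ; linarith
  have hrδ : r < δ := by have := min_le_right ε δ; linarith
  set s : Set ℂ := closedBall (0 : ℂ) 1 ∩ ball z₀ ε with hs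
  have hz₀s : z₀ ∈ s := ⟨hz₀, mem_ball_self hε⟩
  set g : ℂ → ℂ → ℂ := fun z t => e (F z (t • (Pi.single j 1 : Cm n))) i with hg
  have hk : IsCompact (closedBall (0 : ℂ) r) := isCompact_closedBall 0 r
  have hc : ContinuousOn (Function.uncurry g) (s ×ˢ closedBall (0 : ℂ) r) := by
    have hc1 : ContinuousOn (fun p : ℂ × ℂ => F p.1 (p.2 • (Pi.single j 1 : Cm n)))
        (s ×ˢ closedBall (0 : ℂ) r) := by
      have hc2 : ContinuousOn (fun p : ℂ × ℂ => ((p.1, p.2 • (Pi.single j 1 : Cm n)) : ℂ × Cm n))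
          (s ×ˢ closedBall (0 : ℂ) r) :=
        (continuous_fst.prodMk (continuous_snd.smul continuous_const)).continuousOn
      refine hF.cont.comp hc2 fun p hp => ⟨hp.1.1, ?_⟩
      rw [mem_ball_zero_iff, norm_single_smul]
      exact lt_of_le_of_lt (by simpa using hp.2) hrδ
    have hc3 : ContinuousOn (fun p : ℂ × ℂ => e (F p.1 (p.2 • (Pi.single j 1 : Cm n))))
        (s ×ˢ closedBall (0 : ℂ) r) := by
      refine e.continuousOn.comp hc1 fun p hp => ?_
      have hp2 : ‖p.2‖ ≤ r := by simpa using hp.2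
      refine hsrc p.1 hp.1.1 hp.1.2 _ ?_ ?_
      · rw [norm_single_smul]; linarith
      · rw [norm_single_smul]; linarith
    exact (continuousOn_pi.1 hc3) i
  have hU : TendstoUniformlyOn g (g z₀) (𝓝[s] z₀) (closedBall (0 : ℂ) r) := by
    rw [Metric.tendstoUniformlyOn_iff]
    intro η hη
    obtain ⟨v, hv, hv2⟩ := hk.mem_uniformity_of_prod hc hz₀s (Metric.dist_mem_uniformity hη)
    filter_upwards [hv] with p hp x hx
    rw [dist_comm]
    exact hv2 p hp x hx
  have hL : TendstoLocallyUniformlyOn g (g z₀) (𝓝[s] z₀) (ball (0 : ℂ) r) :=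
    (hU.mono ball_subset_closedBall).tendstoLocallyUniformlyOn
  have hD : ∀ᶠ z in 𝓝[s] z₀, DifferentiableOn ℂ (g z) (ball (0 : ℂ) r) := by
    filter_upwards [self_mem_nhdsWithin] with z hz t ht
    have ht2 : ‖t‖ < r := by simpa using ht
    have hin : t • (Pi.single j 1 : Cm n) ∈ ball (0 : Cm n) δ := by
      rw [mem_ball_zero_iff, norm_single_smul]; linarith
    have hat : At e (F z (t • (Pi.single j 1 : Cm n))) := by
      refine ⟨he.1, hsrc z hz.1 hz.2 _ ?_ ?_⟩
      · rw [norm_single_smul]; linarith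
      · rw [norm_single_smul]; linarith
    have hd1 := hF.holz z hz.1 _ hin e hat
    have hd2 : DifferentiableAt ℂ (fun t : ℂ => t • (Pi.single j 1 : Cm n)) t :=
      differentiableAt_id.smul_const _
    have hd3 : DifferentiableAt ℂ (fun t : ℂ => e (F z (t • (Pi.single j 1 : Cm n)))) t :=
      DifferentiableAt.comp (g := fun ζ' => e (F z ζ')) t hd1 hd2
    exact ((differentiableAt_pi.1 hd3) i).differentiableWithinAt
  have hT := (hL.deriv hD isOpen_ball).tendsto_at (mem_ball_self hr0)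
  have hnn : 𝓝[s] z₀ = 𝓝[closedBall (0 : ℂ) 1] z₀ :=
    nhdsWithin_inter_of_mem' (mem_nhdsWithin_of_mem_nhds (ball_mem_nhds z₀ hε))
  rw [hnn] at hT
  have h00 : (0 : Cm n) ∈ ball (0 : Cm n) δ := mem_ball_self hδ
  have hz0eq : tj F e z₀ 0 i j = deriv (g z₀) 0 :=
    tj_apply_eq_deriv (hF.holz z₀ hz₀ 0 h00 e he) i j
  show Tendsto (fun z => tj F e z 0 i j) (𝓝[closedBall 0 1] z₀) (𝓝 (tj F e z₀ 0 i j))
  rw [hz0eq]
  refine hT.congr' ?_
  have hev : ∀ᶠ z in 𝓝[closedBall (0 : ℂ) 1] z₀, z ∈ s := by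
    rw [← hnn]; exact self_mem_nhdsWithin
  filter_upwards [hev] with z hz
  have hat : At e (F z 0) := ⟨he.1, hsrc z hz.1 hz.2 0 (by simpa using hε) (by simpa using hδ)⟩
  exact (tj_apply_eq_deriv (hF.holz z hz.1 0 h00 e hat) i j).symm

variable [IsManifold 𝓘(ℂ, Cm n) ω X]

/-- chain rule for the velocity matrices in two charts -/
lemma tj_change (hF : HolTube f δ F) (hz : z ∈ closedBall (0 : ℂ) 1)
    (hζ : ζ ∈ ball (0 : Cm n) δ) (he : At e (F z ζ)) (he' : At e' (F z ζ)) :
    tj F e' z ζ = jacM e e' (F z ζ) * tj F e z ζ := by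
  have hd := hF.holz z hz ζ hζ e he
  have hd' := hF.holz z hz ζ hζ e' he'
  have hτ := transition_differentiableAt he he'
  rw [tj_eq_jmat hd', tj_eq_jmat hd, jacM_eq]
  have h2 : (fun ζ' => e' (F z ζ')) =ᶠ[𝓝 ζ] fun ζ' => (fun y => e' (e.symm y)) (e (F z ζ')) := by
    filter_upwards [(cont_snd hF hz hζ).eventually (e.open_source.mem_nhds he.2)] with ζ' hζ'
    simp only [e.left_inv hζ']
  rw [jmat_congr h2]
  exact jmat_comp (τ := fun ζ' => e (F z ζ')) (σ := fun y => e' (e.symm y)) hτ hd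

lemma form_mul (T J W : Matrix (Fin n) (Fin n) ℂ) :
    T.transpose * (J.transpose * W * J.map (starRingEnd ℂ)) * T.map (starRingEnd ℂ) =
      (J * T).transpose * W * (J * T).map (starRingEnd ℂ) := by
  rw [Matrix.transpose_mul, Matrix.map_mul]
  simp only [Matrix.mul_assoc]

/-- `pbM` computed in an arbitrary chart around `F z 0` -/
lemma pbM_eq (hw : IsHermitian w) (hF : HolTube f δ F) (hz : z ∈ closedBall (0 : ℂ) 1)
    (he : At e (F z 0)) :
    pbM w F z = (tj F e z 0).transpose * w e (e (F z 0)) * (tj F e z 0).map (starRingEnd ℂ) := by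
  have he' := BR.at_chartAt (n := n) (F z 0)
  have h00 : (0 : Cm n) ∈ ball (0 : Cm n) δ := mem_ball_self hF.pos
  unfold pbM
  rw [hw.change (chartAt (Cm n) (F z 0)) e (F z 0) he' he, form_mul,
    ← tj_change hF hz h00 he' he]

lemma pbM_posDef (hw : IsHermitian w) (hF : HolTube f δ F) (hz : z ∈ closedBall (0 : ℂ) 1) :
    (pbM w F z).PosDef := by
  have he := BR.at_chartAt (n := n) (F z 0)
  have hdet : (tj F (chartAt (Cm n) (F z 0)) z 0).det ≠ 0 := by
    refine hF.inv z hz _ ?_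
    rw [← hF.zero z hz]; exact he
  have h1 : pbM w F z = ((tj F (chartAt (Cm n) (F z 0)) z 0).map (starRingEnd ℂ)).conjTranspose *
      w (chartAt (Cm n) (F z 0)) (chartAt (Cm n) (F z 0) (F z 0)) *
      (tj F (chartAt (Cm n) (F z 0)) z 0).map (starRingEnd ℂ) := by
    have h2 : ((tj F (chartAt (Cm n) (F z 0)) z 0).map (starRingEnd ℂ)).conjTranspose =
        (tj F (chartAt (Cm n) (F z 0)) z 0).transpose := by
      ext i j; simp
    rw [h2]; rfl
  rw [h1]
  refine (hw.posDef _ _ he).conjTranspose_mul_mul_same ?_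
  refine Matrix.mulVec_injective_of_isUnit ?_
  rw [Matrix.isUnit_iff_isUnit_det]
  exact isUnit_conj (isUnit_iff_ne_zero.2 hdet)

lemma pbM_cont (hw : IsHermitian w) (hF : HolTube f δ F) :
    ContinuousOn (pbM w F) (closedBall 0 1) := by
  intro z₀ hz₀
  have he := BR.at_chartAt (n := n) (F z₀ 0)
  set e : Chart n X := chartAt (Cm n) (F z₀ 0) with hedef
  have hcF : ContinuousWithinAt (fun z => F z 0) (closedBall (0 : ℂ) 1) z₀ := cont_fst hF z₀ hz₀
  have hat : ∀ᶠ z in 𝓝[closedBall (0 : ℂ) 1] z₀, At e (F z 0) := by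
    filter_upwards [hcF (e.open_source.mem_nhds he.2)] with z hz
    exact ⟨he.1, hz⟩
  have hw1 : ∀ p q, ContinuousWithinAt (fun z => w e (e (F z 0)) p q) (closedBall (0 : ℂ) 1) z₀ := by
    intro p q
    have h1 : ContinuousAt (fun y => w e y p q) (e (F z₀ 0)) := (hw.smooth e _ he p q).continuousAt
    have h2 : ContinuousAt (fun x => w e (e x) p q) (F z₀ 0) :=
      ContinuousAt.comp (g := fun y => w e y p q) h1 (e.continuousAt he.2)
    exact h2.comp_continuousWithinAt (f := fun z => F z 0) hcF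
  have hcont : ContinuousWithinAt (fun z => (tj F e z 0).transpose * w e (e (F z 0)) *
      (tj F e z 0).map (starRingEnd ℂ)) (closedBall (0 : ℂ) 1) z₀ := by
    refine continuousWithinAt_pi.2 fun i => continuousWithinAt_pi.2 fun j => ?_
    simp only [Matrix.mul_apply, Matrix.transpose_apply, Matrix.map_apply]
    refine tendsto_finset_sum _ fun q _ => Tendsto.mul (tendsto_finset_sum _ fun p _ =>
      Tendsto.mul (tj_cont hF hz₀ he p i) (hw1 p q)) ?_
    exact (Complex.continuous_conj.tendsto _).comp (tj_cont hF hz₀ he q j)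
  refine hcont.congr_of_eventuallyEq ?_ ?_
  · filter_upwards [hat, self_mem_nhdsWithin] with z hz hz1
    exact pbM_eq hw hF hz1 hz
  · exact pbM_eq hw hF hz₀ he

end

/-- **B13a** -/
theorem b13a (n : ℕ) (X : Type) [TopologicalSpace X] [ChartedSpace (Cm n) X]
    [IsManifold 𝓘(ℂ, Cm n) ω X] : HY.B13a n X := fun w hw δ f F hF =>
  ⟨pbM_cont hw hF, fun z hz => pbM_posDef hw hF hz⟩

end Vale.Agent.P272.PB
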